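import Mathlib
import Vale.Agent.P262.Full.FinalF
import Vale.Agent.P262.Full.Lower

namespace Vale.Agent.Results.P262.SteinitzFull

/-- `beta v`: the least possible value, over all orderings `π` of the family `v 0, …, v (N-1)`,
of the largest norm of a partial sum `∑_{i<k} v (π i)`, `0 ≤ k ≤ N`. -/
noncomputable def beta {d N : ℕ} (v : Fin N → EuclideanSpace ℝ (Fin d)) : ℝ :=
  ⨅ π : Equiv.Perm (Fin N), ⨆ k : Fin (N + 1), ‖∑ i with i.val < k.val, v (π i)‖

/-- The set of all values `beta v`, over all lengths `N` and all zero-sum families `v` of length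
`N` in the Euclidean unit ball of `ℝ^d`. -/
def betaSet (d : ℕ) : Set ℝ :=
  {r | ∃ (N : ℕ) (v : Fin N → EuclideanSpace ℝ (Fin d)),
    (∀ i, ‖v i‖ ≤ 1) ∧ ∑ i, v i = 0 ∧ r = beta v}

/-- The Euclidean Steinitz constant `S₂(d)`. -/
noncomputable def steinitz (d : ℕ) : ℝ := sSup (betaSet d)

/-- **The Euclidean Steinitz–Bergström conjecture.**  There are absolute constants `c, C > 0` such
that for every dimension `d ≥ 1`: every zero-sum family (of any length `N`) in the Euclidean unit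
ball of `ℝ^d` can be ordered so that all partial sums have norm at most `C √d`; consequently
`S₂(d)` is finite and `c √d ≤ S₂(d) ≤ C √d`. -/
theorem result : ∃ c C : ℝ, 0 < c ∧ 0 < C ∧ ∀ d : ℕ, 1 ≤ d →
    (∀ (N : ℕ) (v : Fin N → EuclideanSpace ℝ (Fin d)), (∀ i, ‖v i‖ ≤ 1) → ∑ i, v i = 0 →
      ∃ π : Equiv.Perm (Fin N), ∀ k : ℕ, ‖∑ i with i.val < k, v (π i)‖ ≤ C * Real.sqrt d) ∧
    BddAbove (betaSet d) ∧
    c * Real.sqrt d ≤ steinitz d ∧ steinitz d ≤ C * Real.sqrt d := by
  obtain ⟨C, hC, H⟩ := P262C.steinitz_full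
  refine ⟨1 / 4, C, by norm_num, hC, fun d hd => ?_⟩
  have hle : ∀ r ∈ betaSet d, r ≤ C * Real.sqrt d := by
    rintro r ⟨N, v, hv, hsum, rfl⟩
    obtain ⟨π, hπ⟩ := H d hd N v hv hsum
    unfold beta
    refine (ciInf_le (Set.finite_range _).bddBelow π).trans ?_
    exact ciSup_le fun k => hπ k.val
  have hbdd : BddAbove (betaSet d) := ⟨_, hle⟩
  refine ⟨fun N v hv hs => H d hd N v hv hs, hbdd, ?_, ?_⟩
  · obtain ⟨N, v, hv, hsum, hlow⟩ := P262C.lower d hd
    unfold steinitz
    refine le_trans ?_ (le_csSup hbdd ⟨N, v, hv, hsum, rfl⟩)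
    unfold beta
    refine le_ciInf fun π => ?_
    obtain ⟨k, hk, hk2⟩ := hlow π
    have hfin : BddAbove (Set.range fun k : Fin (N + 1) =>
        ‖∑ i with i.val < k.val, v (π i)‖) := (Set.finite_range _).bddAbove
    have h1 := le_ciSup hfin ⟨k, Nat.lt_succ_of_le hk⟩
    exact hk2.trans h1
  · unfold steinitz
    exact Real.sSup_le hle (by positivity)

end Vale.Agent.Results.P262.SteinitzFull
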