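import Mathlib
import Vale.Agent.P262.Final

namespace Vale.Agent.Results.P262.SteinitzSqrt

/-- `beta v`: the least possible value, over all orderings `π` of the family `v 0, …, v (N-1)`,
of the largest norm of a partial sum `∑_{i<k} v (π i)`, `0 ≤ k ≤ N`. -/
noncomputable def beta {d N : ℕ} (v : Fin N → EuclideanSpace ℝ (Fin d)) : ℝ :=
  ⨅ π : Equiv.Perm (Fin N), ⨆ k : Fin (N + 1), ‖∑ i with i.val < k.val, v (π i)‖

/-- The set of all values `beta v`, over all lengths `N` and all zero-sum families `v` of length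
`N` in the Euclidean unit ball of `ℝ^d`. -/
def betaSet (d : ℕ) : Set ℝ :=
  {r | ∃ (N : ℕ) (v : Fin N → EuclideanSpace ℝ (Fin d)),
    (∀ i, ‖v i‖ ≤ 1) ∧ ∑ i, v i = 0 ∧ r = beta v}

/-- The Euclidean Steinitz constant `S₂(d)`. -/
noncomputable def steinitz (d : ℕ) : ℝ := sSup (betaSet d)

/-- The Euclidean Steinitz constant is at most `C √d (1 + log d)²`, for every dimension `d` and
uniformly in the number `N` of vectors. -/
theorem result : ∃ C : ℝ, 0 < C ∧ ∀ d : ℕ, 1 ≤ d →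
    (∀ (N : ℕ) (v : Fin N → EuclideanSpace ℝ (Fin d)), (∀ i, ‖v i‖ ≤ 1) → ∑ i, v i = 0 →
      ∃ π : Equiv.Perm (Fin N), ∀ k : ℕ,
        ‖∑ i with i.val < k, v (π i)‖ ≤ C * Real.sqrt d * (1 + Real.log d)^2) ∧
    BddAbove (betaSet d) ∧ steinitz d ≤ C * Real.sqrt d * (1 + Real.log d)^2 := by
  obtain ⟨C₁, hC₁, h₁⟩ := _root_.P262.steinitz_order
  obtain ⟨C₂, hC₂, h₂⟩ := _root_.P262.main
  have hmono : ∀ (C C' : ℝ) (d : ℕ), C ≤ C' → 
      C * Real.sqrt d * (1 + Real.log d)^2 ≤ C' * Real.sqrt d * (1 + Real.log d)^2 := by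
    intro C C' d h
    exact mul_le_mul_of_nonneg_right (mul_le_mul_of_nonneg_right h (Real.sqrt_nonneg _))
      (sq_nonneg _)
  refine ⟨max C₁ C₂, lt_max_of_lt_left hC₁, fun d hd => ⟨fun N v hv hs => ?_, ?_, ?_⟩⟩
  · obtain ⟨π, hπ⟩ := h₁ d hd N v hv hs
    exact ⟨π, fun k => (hπ k).trans (hmono _ _ _ (le_max_left _ _))⟩
  · exact (h₂ d hd).1
  · exact (h₂ d hd).2.trans (hmono _ _ _ (le_max_right _ _))

end Vale.Agent.Results.P262.SteinitzSqrt
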