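import Mathlib
import Vale.Agent.P262.FinalQ

namespace Vale.Agent.Results.P262.SteinitzSqrtLog

/-- `beta v`: the least possible value, over all orderings `π` of the family `v 0, …, v (N-1)`,
of the largest norm of a partial sum `∑_{i<k} v (π i)`, `0 ≤ k ≤ N`. -/
noncomputable def beta {d N : ℕ} (v : Fin N → EuclideanSpace ℝ (Fin d)) : ℝ :=
  ⨅ π : Equiv.Perm (Fin N), ⨆ k : Fin (N + 1), ‖∑ i with i.val < k.val, v (π i)‖

/-- The set of all values `beta v`, over all lengths `N` and all zero-sum families `v` of length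
`N` in the Euclidean unit ball of `ℝ^d`. -/
def betaSet (d : ℕ) : Set ℝ :=
  {r | ∃ (N : ℕ) (v : Fin N → EuclideanSpace ℝ (Fin d)),
    (∀ i, ‖v i‖ ≤ 1) ∧ ∑ i, v i = 0 ∧ r = beta v}

/-- The Euclidean Steinitz constant `S₂(d)`. -/
noncomputable def steinitz (d : ℕ) : ℝ := sSup (betaSet d)

/-- The Euclidean Steinitz constant is at most `1000 √(d (1 + log d))`, for every dimension `d` and
uniformly in the number `N` of vectors. -/
theorem result : ∀ d : ℕ, 1 ≤ d →
    (∀ (N : ℕ) (v : Fin N → EuclideanSpace ℝ (Fin d)), (∀ i, ‖v i‖ ≤ 1) → ∑ i, v i = 0 →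
      ∃ π : Equiv.Perm (Fin N), ∀ k : ℕ,
        ‖∑ i with i.val < k, v (π i)‖ ≤ 1000 * Real.sqrt (d * (1 + Real.log d))) ∧
    BddAbove (betaSet d) ∧ steinitz d ≤ 1000 * Real.sqrt (d * (1 + Real.log d)) := by
  intro d hd
  have hle : ∀ r ∈ betaSet d, r ≤ 1000 * Real.sqrt (d * (1 + Real.log d)) := by
    rintro r ⟨N, v, hv, hsum, rfl⟩
    obtain ⟨π, hπ⟩ := P262Q.steinitz_order d hd N v hv hsum
    unfold beta
    refine (ciInf_le (Set.finite_range _).bddBelow π).trans ?_
    exact ciSup_le fun k => hπ k.val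
  refine ⟨fun N v hv hs => P262Q.steinitz_order d hd N v hv hs, ⟨_, hle⟩, ?_⟩
  unfold steinitz
  exact Real.sSup_le hle (by positivity)

end Vale.Agent.Results.P262.SteinitzSqrtLog
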